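import Mathlib

/-!
The Fischer inner product on polynomials over `ℂ`: multiplication by a variable is adjoint to the
partial derivative.
-/

set_option autoImplicit false

namespace Vale.Agent.P181.H129

open MvPolynomial Finset

variable {V : Type*} [Fintype V]

/-- The factorial of an exponent vector. -/
def fac (α : V →₀ ℕ) : ℕ := ∏ v, (α v).factorial

lemma fac_pos (α : V →₀ ℕ) : 0 < fac α := Finset.prod_pos fun _ _ => Nat.factorial_pos _

lemma fac_add_single [DecidableEq V] (α : V →₀ ℕ) (v : V) :
    fac (α + Finsupp.single v 1) = (α v + 1) * fac α := by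
  unfold fac
  rw [← Finset.mul_prod_erase univ _ (Finset.mem_univ v),
    ← Finset.mul_prod_erase univ (fun u => (α u).factorial) (Finset.mem_univ v)]
  have h1 : (α + Finsupp.single v 1 : V →₀ ℕ) v = α v + 1 := by simp
  rw [h1, Nat.factorial_succ, mul_assoc]
  congr 2
  apply Finset.prod_congr rfl
  intro u hu
  have hne : u ≠ v := Finset.ne_of_mem_erase hu
  rw [Finsupp.add_apply, Finsupp.single_eq_of_ne hne, add_zero]

/-- The Fischer product. -/
noncomputable def ip (f g : MvPolynomial V ℂ) : ℂ :=
  ∑ α ∈ f.support, (starRingEnd ℂ) (coeff α f) * (fac α : ℂ) * coeff α g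

lemma ip_eq_sum {f g : MvPolynomial V ℂ} {s : Finset (V →₀ ℕ)} (h : f.support ⊆ s) :
    ip f g = ∑ α ∈ s, (starRingEnd ℂ) (coeff α f) * (fac α : ℂ) * coeff α g := by
  unfold ip
  apply Finset.sum_subset h
  intro α _ hα
  rw [MvPolynomial.notMem_support_iff] at hα
  rw [hα]
  simp

lemma ip_add_left (f f' g : MvPolynomial V ℂ) : ip (f + f') g = ip f g + ip f' g := by
  classical
  rw [ip_eq_sum (f := f + f') (s := f.support ∪ f'.support) (MvPolynomial.support_add),
    ip_eq_sum (f := f) (s := f.support ∪ f'.support) Finset.subset_union_left,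
    ip_eq_sum (f := f') (s := f.support ∪ f'.support) Finset.subset_union_right,
    ← Finset.sum_add_distrib]
  apply Finset.sum_congr rfl
  intro α _
  rw [coeff_add, map_add]
  ring

lemma ip_add_right (f g g' : MvPolynomial V ℂ) : ip f (g + g') = ip f g + ip f g' := by
  unfold ip
  rw [← Finset.sum_add_distrib]
  apply Finset.sum_congr rfl
  intro α _
  rw [coeff_add]
  ring

lemma ip_smul_right (f g : MvPolynomial V ℂ) (c : ℂ) : ip f (c • g) = c * ip f g := by
  unfold ip
  rw [Finset.mul_sum]
  apply Finset.sum_congr rfl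
  intro α _
  rw [coeff_smul, smul_eq_mul]
  ring

lemma ip_conj (f g : MvPolynomial V ℂ) : (starRingEnd ℂ) (ip g f) = ip f g := by
  classical
  rw [ip_eq_sum (f := f) (s := f.support ∪ g.support) Finset.subset_union_left,
    ip_eq_sum (f := g) (s := f.support ∪ g.support) Finset.subset_union_right, map_sum]
  apply Finset.sum_congr rfl
  intro α _
  rw [map_mul, map_mul, Complex.conj_conj, Complex.conj_natCast]
  ring

lemma ip_self (f : MvPolynomial V ℂ) :
    ip f f = ((∑ α ∈ f.support, (fac α : ℝ) * ‖coeff α f‖ ^ 2 : ℝ) : ℂ) := by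
  unfold ip
  push_cast
  apply Finset.sum_congr rfl
  intro α _
  rw [mul_comm ((starRingEnd ℂ) _), mul_assoc, Complex.conj_mul']

lemma ip_self_re_nonneg (f : MvPolynomial V ℂ) : 0 ≤ (ip f f).re := by
  rw [ip_self, Complex.ofReal_re]
  exact Finset.sum_nonneg fun α _ => by positivity

lemma ip_self_eq_zero {f : MvPolynomial V ℂ} (h : ip f f = 0) : f = 0 := by
  rw [ip_self, Complex.ofReal_eq_zero] at h
  rw [← MvPolynomial.support_eq_empty, Finset.eq_empty_iff_forall_notMem]
  intro α hα
  have h1 := (Finset.sum_eq_zero_iff_of_nonneg (fun α _ => by positivity)).mp h α hα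
  have h2 : (fac α : ℝ) ≠ 0 := by exact_mod_cast (fac_pos α).ne'
  have h3 : ‖coeff α f‖ ^ 2 = 0 := by
    rcases mul_eq_zero.mp h1 with h4 | h4
    · exact absurd h4 h2
    · exact h4
  have h5 : coeff α f = 0 := by
    rw [← norm_eq_zero]
    exact pow_eq_zero_iff (two_ne_zero) |>.mp h3
  exact (MvPolynomial.mem_support_iff.mp hα) h5

lemma ip_monomial (α : V →₀ ℕ) (a : ℂ) (g : MvPolynomial V ℂ) :
    ip (monomial α a) g = (starRingEnd ℂ) a * (fac α : ℂ) * coeff α g := by
  classical
  rw [ip_eq_sum (s := {α}) MvPolynomial.support_monomial_subset, Finset.sum_singleton,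
    coeff_monomial, if_pos rfl]

lemma ip_zero_left (g : MvPolynomial V ℂ) : ip 0 g = 0 := by
  simp [ip]

/-- Multiplication by a variable is adjoint to the partial derivative. -/
lemma ip_X_mul (v : V) (f g : MvPolynomial V ℂ) : ip (X v * f) g = ip f (pderiv v g) := by
  classical
  induction f using MvPolynomial.induction_on' with
  | add p q hp hq => rw [mul_add, ip_add_left, ip_add_left, hp, hq]
  | monomial α a =>
    rw [ip_monomial, coeff_pderiv]
    have h1 : (X v * monomial α a : MvPolynomial V ℂ) = monomial (α + Finsupp.single v 1) a := by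
      rw [X, monomial_mul, one_mul, add_comm]
    rw [h1, ip_monomial, fac_add_single]
    push_cast
    ring

end Vale.Agent.P181.H129
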