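import Vale.Agent.P181.H129.Trace

/-!
Row and column polarisation operators on polynomials in `x_(i,p)`, `i` a row, `p` a column.
-/

set_option autoImplicit false
set_option linter.unusedSectionVars false

namespace Vale.Agent.P181.H129

open MvPolynomial Finset Module

section Gen

variable {V : Type*}

/-- `f ↦ x_v ∂f/∂x_w` -/
noncomputable def A (v w : V) : MvPolynomial V ℂ →ₗ[ℂ] MvPolynomial V ℂ :=
  (LinearMap.mulLeft ℂ (X v)) ∘ₗ (pderiv w).toLinearMap

lemma A_apply (v w : V) (f : MvPolynomial V ℂ) : A v w f = X v * pderiv w f := rfl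

/-- `f ↦ x_v x_v' ∂²f/∂x_w∂x_w'` -/
noncomputable def B (v v' w w' : V) (f : MvPolynomial V ℂ) : MvPolynomial V ℂ :=
  X v * (X v' * pderiv w (pderiv w' f))

lemma pderiv_comm' (v w : V) (f : MvPolynomial V ℂ) :
    pderiv v (pderiv w f) = pderiv w (pderiv v f) := by
  classical
  ext m
  rw [coeff_pderiv, coeff_pderiv, coeff_pderiv, coeff_pderiv]
  rcases eq_or_ne v w with h | h
  · rw [h]
  · rw [add_right_comm]
    simp only [Finsupp.add_apply, Finsupp.single_apply, if_neg h, if_neg h.symm, add_zero]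
    ring

lemma B_swap (v v' w w' : V) (f : MvPolynomial V ℂ) : B v v' w w' f = B v' v w w' f := by
  unfold B; ring

lemma B_swap' (v v' w w' : V) (f : MvPolynomial V ℂ) : B v v' w w' f = B v v' w' w f := by
  unfold B; rw [pderiv_comm']

lemma A_A [DecidableEq V] (v w v' w' : V) (f : MvPolynomial V ℂ) :
    A v w (A v' w' f) = (if w = v' then A v w' f else 0) + B v v' w w' f := by
  rw [A_apply, A_apply, pderiv_mul]
  unfold B
  split_ifs with h
  · rw [h, pderiv_X_self, A_apply]
    ring
  · rw [pderiv_X_of_ne (fun h' => h h'.symm)]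
    ring

lemma ip_A [Fintype V] (v w : V) (f g : MvPolynomial V ℂ) : ip (A v w f) g = ip f (A w v g) := by
  rw [A_apply, A_apply, ip_X_mul, ← ip_conj f, ip_X_mul, ip_conj]

lemma ip_A' [Fintype V] (v w : V) (f g : MvPolynomial V ℂ) :
    ip f (A v w g) = ip (pderiv v f) (pderiv w g) := by
  rw [A_apply, ← ip_conj f, ip_X_mul, ip_conj]

end Gen

section Two

variable {ι κ : Type*} [Fintype ι] [Fintype κ]

/-- `∑_i x_(i,p) ∂/∂x_(i,q)` -/
noncomputable def E (p q : κ) : MvPolynomial (ι × κ) ℂ →ₗ[ℂ] MvPolynomial (ι × κ) ℂ :=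
  ∑ i : ι, A (i, p) (i, q)

/-- `∑_p x_(l,p) ∂/∂x_(i,p)` -/
noncomputable def R (l i : ι) : MvPolynomial (ι × κ) ℂ →ₗ[ℂ] MvPolynomial (ι × κ) ℂ :=
  ∑ p : κ, A (l, p) (i, p)

omit [Fintype κ] in
lemma E_apply (p q : κ) (f : MvPolynomial (ι × κ) ℂ) :
    E p q f = ∑ i : ι, A (i, p) (i, q) f := by
  unfold E; rw [LinearMap.sum_apply]

omit [Fintype ι] in
lemma R_apply (l i : ι) (f : MvPolynomial (ι × κ) ℂ) :
    R l i f = ∑ p : κ, A (l, p) (i, p) f := by
  unfold R; rw [LinearMap.sum_apply]

lemma ip_sum_right {V : Type*} [Fintype V] {α : Type*} (s : Finset α) (f : MvPolynomial V ℂ)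
    (g : α → MvPolynomial V ℂ) : ip f (∑ i ∈ s, g i) = ∑ i ∈ s, ip f (g i) := by
  classical
  induction s using Finset.induction_on with
  | empty => simp [ip]
  | insert a s ha ih => rw [Finset.sum_insert ha, ip_add_right, ih, Finset.sum_insert ha]

lemma ip_sum_left {V : Type*} [Fintype V] {α : Type*} (s : Finset α) (f : MvPolynomial V ℂ)
    (g : α → MvPolynomial V ℂ) : ip (∑ i ∈ s, g i) f = ∑ i ∈ s, ip (g i) f := by
  rw [← ip_conj, ip_sum_right, map_sum]
  exact Finset.sum_congr rfl fun i _ => ip_conj _ _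

lemma ip_E (p q : κ) (f g : MvPolynomial (ι × κ) ℂ) : ip (E p q f) g = ip f (E q p g) := by
  rw [E_apply, E_apply, ip_sum_left, ip_sum_right]
  exact Finset.sum_congr rfl fun i _ => ip_A _ _ _ _

variable [DecidableEq ι] [DecidableEq κ]

lemma E_E (p q r s : κ) (f : MvPolynomial (ι × κ) ℂ) :
    E p q (E r s f) = (if q = r then E p s f else 0) +
      ∑ i : ι, ∑ l : ι, B (i, p) (l, r) (i, q) (l, s) f := by
  rw [E_apply]
  simp only [E_apply r s, map_sum, A_A, Finset.sum_add_distrib]
  congr 1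
  split_ifs with h
  · rw [E_apply]
    apply Finset.sum_congr rfl
    intro i _
    rw [Finset.sum_eq_single i]
    · rw [if_pos (by rw [h])]
    · intro l _ hl
      rw [if_neg]
      intro h'
      exact hl (Prod.ext_iff.mp h').1.symm
    · simp
  · apply Finset.sum_eq_zero
    intro i _
    apply Finset.sum_eq_zero
    intro l _
    rw [if_neg]
    intro h'
    exact h (Prod.ext_iff.mp h').2

lemma E_comm (p q r s : κ) (f : MvPolynomial (ι × κ) ℂ) :
    E p q (E r s f) = E r s (E p q f) + (if q = r then E p s f else 0) -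
      (if s = p then E r q f else 0) := by
  rw [E_E, E_E]
  have h : ∑ i : ι, ∑ l : ι, B (i, p) (l, r) (i, q) (l, s) f =
      ∑ i : ι, ∑ l : ι, B (i, r) (l, p) (i, s) (l, q) f := by
    rw [Finset.sum_comm]
    apply Finset.sum_congr rfl
    intro i _
    apply Finset.sum_congr rfl
    intro l _
    rw [B_swap, B_swap']
  rw [h]
  abel

lemma R_E (l i : ι) (p q : κ) (f : MvPolynomial (ι × κ) ℂ) :
    R l i (E p q f) = E p q (R l i f) := by
  have h1 : R l i (E p q f) = A (l, p) (i, q) f +
      ∑ r : κ, ∑ k : ι, B (l, r) (k, p) (i, r) (k, q) f := by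
    rw [R_apply]
    simp only [E_apply, map_sum, A_A, Finset.sum_add_distrib]
    congr 1
    rw [Finset.sum_eq_single p, Finset.sum_eq_single i]
    · rw [if_pos rfl]
    · intro k _ hk
      rw [if_neg]
      intro h'
      exact hk (Prod.ext_iff.mp h').1.symm
    · simp
    · intro r _ hr
      apply Finset.sum_eq_zero
      intro k _
      rw [if_neg]
      intro h'
      exact hr (Prod.ext_iff.mp h').2
    · simp
  have h2 : E p q (R l i f) = A (l, p) (i, q) f +
      ∑ k : ι, ∑ r : κ, B (k, p) (l, r) (k, q) (i, r) f := by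
    rw [E_apply]
    simp only [R_apply, map_sum, A_A, Finset.sum_add_distrib]
    congr 1
    rw [Finset.sum_eq_single l, Finset.sum_eq_single q]
    · rw [if_pos rfl]
    · intro r _ hr
      rw [if_neg]
      intro h'
      exact hr (Prod.ext_iff.mp h').2.symm
    · simp
    · intro k _ hk
      apply Finset.sum_eq_zero
      intro r _
      rw [if_neg]
      intro h'
      exact hk (Prod.ext_iff.mp h').1
    · simp
  have h3 : ∑ r : κ, ∑ k : ι, B (l, r) (k, p) (i, r) (k, q) f =
      ∑ k : ι, ∑ r : κ, B (k, p) (l, r) (k, q) (i, r) f := by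
    rw [Finset.sum_comm]
    exact Finset.sum_congr rfl fun k _ => Finset.sum_congr rfl fun r _ => by
      rw [B_swap, B_swap']
  rw [h1, h2, h3]

end Two

end Vale.Agent.P181.H129
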