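import Vale.Agent.P181.H129.Ops

/-!
One new column `none`: the operators `S`, `T`, their difference, and the Fischer bound of `S` on
highest weight polynomials.
-/

set_option autoImplicit false
set_option linter.unusedSectionVars false

namespace Vale.Agent.P181.H129

open MvPolynomial Finset Module

variable {ι τ : Type*} [Fintype ι] [Fintype τ] [LinearOrder ι] [DecidableEq τ]

/-- the row operator on the new column -/
noncomputable def Ro (l i : ι) :
    MvPolynomial (ι × Option τ) ℂ →ₗ[ℂ] MvPolynomial (ι × Option τ) ℂ :=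
  A (l, none) (i, none)

/-- the row operator on the old columns -/
noncomputable def Ri (l i : ι) :
    MvPolynomial (ι × Option τ) ℂ →ₗ[ℂ] MvPolynomial (ι × Option τ) ℂ :=
  ∑ p : τ, A (l, some p) (i, some p)

lemma Ri_apply (l i : ι) (f : MvPolynomial (ι × Option τ) ℂ) :
    Ri l i f = ∑ p : τ, A (l, some p) (i, some p) f := by
  unfold Ri; rw [LinearMap.sum_apply]

lemma R_option (l i : ι) (f : MvPolynomial (ι × Option τ) ℂ) :
    R l i f = Ro l i f + Ri l i f := by
  rw [R_apply, Ri_apply, Fintype.sum_option]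
  rfl

/-- `∑_p E_(o,p) E_(p,o)` -/
noncomputable def Sop : MvPolynomial (ι × Option τ) ℂ →ₗ[ℂ] MvPolynomial (ι × Option τ) ℂ :=
  ∑ p : τ, E none (some p) ∘ₗ E (some p) none

/-- `∑_p E_(p,o) E_(o,p)` -/
noncomputable def Top' : MvPolynomial (ι × Option τ) ℂ →ₗ[ℂ] MvPolynomial (ι × Option τ) ℂ :=
  ∑ p : τ, E (some p) none ∘ₗ E none (some p)

lemma Sop_apply (f : MvPolynomial (ι × Option τ) ℂ) :
    Sop f = ∑ p : τ, E none (some p) (E (some p) none f) := by
  unfold Sop; rw [LinearMap.sum_apply]; rfl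

lemma Top_apply (f : MvPolynomial (ι × Option τ) ℂ) :
    Top' f = ∑ p : τ, E (some p) none (E none (some p) f) := by
  unfold Top'; rw [LinearMap.sum_apply]; rfl

lemma Top_eq (f : MvPolynomial (ι × Option τ) ℂ) :
    Top' f = Sop f + ∑ p : τ, E (some p) (some p) f -
      (Fintype.card τ : ℂ) • E none none f := by
  rw [Top_apply, Sop_apply, ← Finset.sum_add_distrib]
  have h : (Fintype.card τ : ℂ) • E none none f = ∑ _p : τ, E none none f := by
    rw [Finset.sum_const, Finset.card_univ, ← Nat.cast_smul_eq_nsmul ℂ]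
  rw [h, ← Finset.sum_sub_distrib]
  apply Finset.sum_congr rfl
  intro p _
  rw [E_comm, if_pos rfl, if_pos rfl]

lemma sum_E (f : MvPolynomial (ι × Option τ) ℂ) :
    ∑ p : τ, E (some p) (some p) f = ∑ i, R i i f - E none none f := by
  have h : ∑ i, R i i f = E none none f + ∑ p : τ, E (some p) (some p) f := by
    simp only [R_apply, E_apply, Fintype.sum_option, Finset.sum_add_distrib]
    rw [Finset.sum_comm]
  rw [h]; abel

lemma Ro_Ri (i l l' i' : ι) (f : MvPolynomial (ι × Option τ) ℂ) :
    Ro i l (Ri l' i' f) = ∑ p : τ, B (i, none) (l', some p) (l, none) (i', some p) f := by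
  rw [Ri_apply, map_sum]
  apply Finset.sum_congr rfl
  intro p _
  unfold Ro
  rw [A_A, if_neg (by simp), zero_add]

lemma Ri_Ro (i l l' i' : ι) (f : MvPolynomial (ι × Option τ) ℂ) :
    Ri l' i' (Ro i l f) = Ro i l (Ri l' i' f) := by
  rw [Ro_Ri, Ri_apply]
  apply Finset.sum_congr rfl
  intro p _
  unfold Ro
  rw [A_A, if_neg (by simp), zero_add, B_swap, B_swap']

lemma Sop_eq (f : MvPolynomial (ι × Option τ) ℂ) :
    Sop f = (Fintype.card τ : ℂ) • E none none f + ∑ i, ∑ l, Ro i l (Ri l i f) := by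
  have h : (Fintype.card τ : ℂ) • E none none f = ∑ _p : τ, E none none f := by
    rw [Finset.sum_const, Finset.card_univ, ← Nat.cast_smul_eq_nsmul ℂ]
  have h2 : ∑ i : ι, ∑ l : ι, Ro i l (Ri l i f) =
      ∑ p : τ, ∑ i : ι, ∑ l : ι, B (i, none) (l, some p) (i, some p) (l, none) f := by
    simp only [Ro_Ri]
    have h4 : ∀ i : ι, ∑ l : ι, ∑ p : τ, B (i, none) (l, some p) (l, none) (i, some p) f =
        ∑ p : τ, ∑ l : ι, B (i, none) (l, some p) (l, none) (i, some p) f :=
      fun i => Finset.sum_comm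
    simp only [h4]
    rw [Finset.sum_comm]
    exact Finset.sum_congr rfl fun p _ => Finset.sum_congr rfl fun i _ =>
      Finset.sum_congr rfl fun l _ => B_swap' _ _ _ _ _
  rw [Sop_apply, h, h2, ← Finset.sum_add_distrib]
  apply Finset.sum_congr rfl
  intro p _
  rw [E_E, if_pos rfl]

/-- Highest weight polynomials of weight `η` and degree `j` in the new column. -/
noncomputable def HJ (τ : Type*) [Fintype τ] [DecidableEq τ] (η : ι → ℕ) (j : ℕ) :
    Submodule ℂ (MvPolynomial (ι × Option τ) ℂ) where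
  carrier := {f | (∀ i, R i i f = (η i : ℂ) • f) ∧ E none none f = (j : ℂ) • f ∧
    ∀ s i, s < i → R s i f = 0}
  zero_mem' := by simp
  add_mem' := by
    rintro f g ⟨h1, h2, h3⟩ ⟨k1, k2, k3⟩
    refine ⟨fun i => ?_, ?_, fun s i h => ?_⟩
    · rw [map_add, h1, k1, smul_add]
    · rw [map_add, h2, k2, smul_add]
    · rw [map_add, h3 s i h, k3 s i h, add_zero]
  smul_mem' := by
    rintro c f ⟨h1, h2, h3⟩
    refine ⟨fun i => ?_, ?_, fun s i h => ?_⟩
    · rw [map_smul, h1, smul_comm]
    · rw [map_smul, h2, smul_comm]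
    · rw [map_smul, h3 s i h, smul_zero]

lemma ip_neg_right {V : Type*} [Fintype V] (f g : MvPolynomial V ℂ) : ip f (-g) = -ip f g := by
  rw [← neg_one_smul ℂ g, ip_smul_right]; ring

lemma ip_sub_right {V : Type*} [Fintype V] (f g h : MvPolynomial V ℂ) :
    ip f (g - h) = ip f g - ip f h := by
  rw [sub_eq_add_neg, ip_add_right, ip_neg_right]; ring

lemma ip_Ro (l i : ι) (f g : MvPolynomial (ι × Option τ) ℂ) :
    ip f (Ro l i g) = ip (Ro i l f) g := by
  unfold Ro; rw [ip_A]

lemma ip_Ri (l i : ι) (f g : MvPolynomial (ι × Option τ) ℂ) :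
    ip f (Ri l i g) = ip (Ri i l f) g := by
  rw [Ri_apply, Ri_apply, ip_sum_right, ip_sum_left]
  exact Finset.sum_congr rfl fun p _ => by rw [ip_A]

/-- The Fischer bound. -/
theorem quad {η : ι → ℕ} {j L : ℕ} (hL : ∀ i, η i ≤ L) {f : MvPolynomial (ι × Option τ) ℂ}
    (hf : f ∈ HJ τ η j) :
    (ip f (Sop f)).re ≤ (j * (Fintype.card τ + L) : ℝ) * (ip f f).re := by
  obtain ⟨h1, h2, h3⟩ := hf
  rw [Sop_eq, ip_add_right, ip_smul_right, ip_sum_right]
  have hE : ip f (E none none f) = (j : ℂ) * ip f f := by rw [h2, ip_smul_right]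
  have hd : ∀ i, 0 ≤ (ip f (Ro i i f)).re := by
    intro i
    unfold Ro
    rw [ip_A']
    exact ip_self_re_nonneg _
  have hs : ∑ i, (ip f (Ro i i f)).re = j * (ip f f).re := by
    rw [← Complex.re_sum, ← ip_sum_right]
    have : ∑ i, Ro i i f = E none none f := by rw [E_apply]; rfl
    rw [this, hE]
    simp
  have hterm : ∀ i, (ip f (∑ l, Ro i l (Ri l i f))).re ≤ L * (ip f (Ro i i f)).re := by
    intro i
    rw [ip_sum_right, Complex.re_sum]
    have hoff : ∀ l, l ≠ i → (ip f (Ro i l (Ri l i f))).re ≤ 0 := by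
      intro l hl
      rcases lt_or_gt_of_ne hl with h | h
      · have h4 : Ri l i f = -Ro l i f := by
          have := h3 l i h
          rw [R_option] at this
          exact (neg_eq_of_add_eq_zero_right this).symm
        rw [h4, map_neg, ip_neg_right, ip_Ro, Complex.neg_re]
        have := ip_self_re_nonneg (Ro l i f)
        linarith
      · have h4 : Ri i l f = -Ro i l f := by
          have := h3 i l h
          rw [R_option] at this
          exact (neg_eq_of_add_eq_zero_right this).symm
        rw [← Ri_Ro, ip_Ri, h4, ← ip_conj, ip_neg_right, map_neg, Complex.neg_re,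
          Complex.conj_re]
        have := ip_self_re_nonneg (Ro i l f)
        linarith
    have hdiag : (ip f (Ro i i (Ri i i f))).re ≤ L * (ip f (Ro i i f)).re := by
      have h4 : Ri i i f = (η i : ℂ) • f - Ro i i f := by
        have := h1 i
        rw [R_option] at this
        rw [← this]; abel
      rw [h4, map_sub, map_smul, ip_sub_right, ip_smul_right, Complex.sub_re]
      have h5 : (ip f (Ro i i (Ro i i f))).re ≥ 0 := by
        rw [ip_Ro]; exact ip_self_re_nonneg _
      have h6 : ((η i : ℂ) * ip f (Ro i i f)).re = η i * (ip f (Ro i i f)).re := by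
        simp
      rw [h6]
      have h7 : (η i : ℝ) ≤ L := by exact_mod_cast hL i
      have := mul_le_mul_of_nonneg_right h7 (hd i)
      linarith
    rw [← Finset.add_sum_erase univ _ (Finset.mem_univ i)]
    have := Finset.sum_nonpos (s := univ.erase i)
      (f := fun l => (ip f (Ro i l (Ri l i f))).re)
      (fun l hl => hoff l (Finset.ne_of_mem_erase hl))
    linarith
  rw [hE, Complex.add_re, Complex.re_sum]
  have h8 : ((Fintype.card τ : ℂ) * ((j : ℂ) * ip f f)).re =
      (Fintype.card τ : ℝ) * (j * (ip f f).re) := by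
    simp [Complex.mul_re]
  rw [h8]
  have h9 : ∑ i, (ip f (∑ l, Ro i l (Ri l i f))).re ≤ ∑ i, L * (ip f (Ro i i f)).re :=
    Finset.sum_le_sum fun i _ => hterm i
  rw [← Finset.mul_sum, hs] at h9
  nlinarith [h9]

end Vale.Agent.P181.H129
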