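import Vale.Agent.P181.H129.Rec
import Vale.Agent.P181.H583.HWDef

/-!
The dimension of the space of highest weight polynomials of weight `η` grows by a factor
`2 ^ (|η| / (2 (N + L)))` for every new column.
-/

set_option autoImplicit false
set_option linter.unusedSectionVars false

namespace Vale.Agent.P181.H129

open MvPolynomial Finset Module Vale.Agent.P181.T4

lemma rowOp_eq {n : ℕ} {σ : Type} [Fintype σ] (s i : Fin n) (f : MvPolynomial (Fin n × σ) ℂ) :
    rowOp s i f = R s i f := by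
  rw [rowOp_apply, R_apply]
  rfl

lemma mem_HW_iff {n : ℕ} {σ : Type} [Fintype σ] [DecidableEq σ] {lam : Fin n → ℕ}
    {f : MvPolynomial (Fin n × σ) ℂ} :
    f ∈ HW n σ lam ↔ (∀ i, R i i f = (lam i : ℂ) • f) ∧ ∀ s i, s < i → R s i f = 0 := by
  rw [mem_HW]
  constructor
  · rintro ⟨h1, h2⟩
    refine ⟨fun i => eigen_of_sum_eq fun α hα => h1 α (MvPolynomial.mem_support_iff.mp hα) i,
      fun s i h => ?_⟩
    rw [← rowOp_eq, h2 s i h]
  · rintro ⟨h1, h2⟩
    refine ⟨fun v hv i => sum_eq_of_eigen (h1 i) (MvPolynomial.mem_support_iff.mpr hv),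
      fun s i h => ?_⟩
    rw [rowOp_eq, h2 s i h]

lemma HJ_le_HW {n : ℕ} {τ : Type} [Fintype τ] [DecidableEq τ] (η : Fin n → ℕ) (j : ℕ) :
    HJ τ η j ≤ HW n (Option τ) η := by
  intro f hf
  rw [mem_HW_iff]
  exact ⟨hf.1, hf.2.2⟩

section Rename

variable {n : ℕ} {σ σ' : Type} [Fintype σ] [Fintype σ']

/-- the renaming of the columns -/
noncomputable def ren (n : ℕ) (e : σ ↪ σ') :
    MvPolynomial (Fin n × σ) ℂ →ₗ[ℂ] MvPolynomial (Fin n × σ') ℂ :=
  (rename (Prod.map id e)).toLinearMap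

lemma ren_injective (e : σ ↪ σ') : Function.Injective (ren n e) :=
  rename_injective _ (Function.injective_id.prodMap e.injective)

lemma ren_apply (e : σ ↪ σ') (f : MvPolynomial (Fin n × σ) ℂ) :
    ren n e f = rename (Prod.map id e) f := rfl

lemma pderiv_ren (e : σ ↪ σ') (f : MvPolynomial (Fin n × σ) ℂ) (i : Fin n) (j : σ) :
    pderiv (i, e j) (ren n e f) = ren n e (pderiv (i, j) f) := by
  have h := pderiv_rename (R := ℂ) (Function.injective_id.prodMap e.injective) (i, j) f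
  exact h

lemma pderiv_ren_of_not (e : σ ↪ σ') (f : MvPolynomial (Fin n × σ) ℂ) (i : Fin n) {j' : σ'}
    (h : ∀ j, e j ≠ j') : pderiv (i, j') (ren n e f) = 0 := by
  classical
  apply pderiv_eq_zero_of_notMem_vars
  intro hv
  have h2 := vars_rename (Prod.map id e) f hv
  rw [Finset.mem_image] at h2
  obtain ⟨⟨k, j⟩, _, hj⟩ := h2
  exact h j (Prod.ext_iff.mp hj).2

lemma R_ren (e : σ ↪ σ') (s i : Fin n) (f : MvPolynomial (Fin n × σ) ℂ) :
    R s i (ren n e f) = ren n e (R s i f) := by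
  classical
  rw [R_apply, R_apply, map_sum]
  have h1 : ∑ j' : σ', A (s, j') (i, j') (ren n e f) =
      ∑ j' ∈ univ.map e, A (s, j') (i, j') (ren n e f) := by
    symm
    apply Finset.sum_subset (Finset.subset_univ _)
    intro j' _ hj'
    rw [A_apply, pderiv_ren_of_not, mul_zero]
    intro j hj
    exact hj' (Finset.mem_map.mpr ⟨j, Finset.mem_univ _, hj⟩)
  rw [h1, Finset.sum_map]
  apply Finset.sum_congr rfl
  intro j _
  rw [A_apply, A_apply, pderiv_ren]
  have h2 : (X (s, e j) : MvPolynomial (Fin n × σ') ℂ) = ren n e (X (s, j)) := by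
    rw [ren_apply, rename_X]; rfl
  rw [h2]
  exact (map_mul (rename (Prod.map id e)) _ _).symm

lemma ren_mem_HW (e : σ ↪ σ') {lam : Fin n → ℕ} {f : MvPolynomial (Fin n × σ) ℂ}
    (hf : f ∈ HW n σ lam) : ren n e f ∈ HW n σ' lam := by
  classical
  rw [mem_HW_iff] at hf ⊢
  refine ⟨fun i => ?_, fun s i h => ?_⟩
  · rw [R_ren, hf.1, map_smul]
  · rw [R_ren, hf.2 s i h, map_zero]

theorem finrank_mono (e : σ ↪ σ') (lam : Fin n → ℕ) :
    finrank ℂ (HW n σ lam) ≤ finrank ℂ (HW n σ' lam) := by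
  apply LinearMap.finrank_le_finrank_of_injective
    (f := (ren n e).restrict (p := HW n σ lam) (q := HW n σ' lam) fun _ hf => ren_mem_HW e hf)
  intro f g h
  apply Subtype.ext
  apply ren_injective e
  exact congrArg Subtype.val h

end Rename

theorem finrank_HW_le_HJ {n : ℕ} {τ : Type} [Fintype τ] [DecidableEq τ] (η : Fin n → ℕ) :
    finrank ℂ (HW n τ η) ≤ finrank ℂ (HJ τ η 0) := by
  have hm : ∀ f ∈ HW n τ η, ren n (Function.Embedding.some (α := τ)) f ∈ HJ τ η 0 := by
    intro f hf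
    have h1 := ren_mem_HW (Function.Embedding.some (α := τ)) hf
    rw [mem_HW_iff] at h1
    refine ⟨h1.1, ?_, h1.2⟩
    rw [Nat.cast_zero, zero_smul, E_apply]
    apply Finset.sum_eq_zero
    intro i _
    rw [A_apply, pderiv_ren_of_not, mul_zero]
    intro j
    simp
  apply LinearMap.finrank_le_finrank_of_injective
    (f := (ren n (Function.Embedding.some (α := τ))).restrict (p := HW n τ η)
      (q := HJ τ η 0) hm)
  intro f g h
  apply Subtype.ext
  apply ren_injective (Function.Embedding.some (α := τ))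
  exact congrArg Subtype.val h

/-- One new column. -/
theorem step (n : ℕ) (τ : Type) [Fintype τ] (η : Fin n → ℕ) {L : ℕ} (hL : ∀ i, η i ≤ L)
    (hL1 : 1 ≤ L) :
    2 ^ ((∑ i, η i) / (2 * (Fintype.card τ + L))) * finrank ℂ (HW n τ η) ≤
      finrank ℂ (HW n (Option τ) η) := by
  classical
  calc 2 ^ ((∑ i, η i) / (2 * (Fintype.card τ + L))) * finrank ℂ (HW n τ η)
      ≤ 2 ^ ((∑ i, η i) / (2 * (Fintype.card τ + L))) * finrank ℂ (HJ τ η 0) :=
        Nat.mul_le_mul_left _ (finrank_HW_le_HJ η)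
    _ ≤ finrank ℂ (HJ τ η ((∑ i, η i) / (2 * (Fintype.card τ + L)))) := hJ_ge hL hL1
    _ ≤ _ := Submodule.finrank_mono (HJ_le_HW η _)

theorem step_fin (n N : ℕ) (η : Fin n → ℕ) {L : ℕ} (hL : ∀ i, η i ≤ L) (hL1 : 1 ≤ L) :
    2 ^ ((∑ i, η i) / (2 * (N + L))) * finrank ℂ (HW n (Fin N) η) ≤
      finrank ℂ (HW n (Fin (N + 1)) η) := by
  have h1 := step n (Fin N) η hL hL1
  rw [Fintype.card_fin] at h1
  exact h1.trans (finrank_mono (finSuccEquivLast (n := N)).symm.toEmbedding η)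

/-- **The dimension ratio.** -/
theorem ratio {n a N : ℕ} (haN : a ≤ N) (η : Fin n → ℕ) {L : ℕ} (hL : ∀ i, η i ≤ L)
    (hL1 : 1 ≤ L) :
    2 ^ ((N - a) * ((∑ i, η i) / (2 * (N + L)))) * finrank ℂ (HW n (Fin a) η) ≤
      finrank ℂ (HW n (Fin N) η) := by
  have key : ∀ k, a + k ≤ N → 2 ^ (k * ((∑ i, η i) / (2 * (N + L)))) *
      finrank ℂ (HW n (Fin a) η) ≤ finrank ℂ (HW n (Fin (a + k)) η) := by
    intro k
    induction k with
    | zero => intro _; simp
    | succ k ih =>
      intro hk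
      have h1 := ih (by omega)
      have h2 := step_fin n (a + k) η hL hL1
      have h3 : (∑ i, η i) / (2 * (N + L)) ≤ (∑ i, η i) / (2 * (a + k + L)) :=
        Nat.div_le_div_left (by omega) (by omega)
      calc 2 ^ ((k + 1) * ((∑ i, η i) / (2 * (N + L)))) * finrank ℂ (HW n (Fin a) η)
          = 2 ^ ((∑ i, η i) / (2 * (N + L))) *
            (2 ^ (k * ((∑ i, η i) / (2 * (N + L)))) * finrank ℂ (HW n (Fin a) η)) := by
            rw [← mul_assoc, ← pow_add]
            congr 2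
            ring
        _ ≤ 2 ^ ((∑ i, η i) / (2 * (a + k + L))) * finrank ℂ (HW n (Fin (a + k)) η) :=
            Nat.mul_le_mul (Nat.pow_le_pow_right (by norm_num) h3) h1
        _ ≤ _ := h2
  have h := key (N - a) (by omega)
  rwa [Nat.add_sub_cancel' haN] at h

end Vale.Agent.P181.H129
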