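import Vale.Agent.P181.H129.Quad

/-!
The trace recursion and the growth of the dimension when one column is added.
-/

set_option autoImplicit false
set_option linter.unusedSectionVars false

namespace Vale.Agent.P181.H129

open MvPolynomial Finset Module

section Euler

variable {V : Type*}

lemma coeff_A_self [DecidableEq V] (v : V) (f : MvPolynomial V ℂ) (α : V →₀ ℕ) :
    coeff α (A v v f) = (α v : ℂ) * coeff α f := by
  rw [A_apply, coeff_X_mul']
  split_ifs with h
  · have h1 : α - Finsupp.single v 1 + Finsupp.single v 1 = α := by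
      apply tsub_add_cancel_of_le
      rw [Finsupp.single_le_iff]
      exact Nat.one_le_iff_ne_zero.mpr (Finsupp.mem_support_iff.mp h)
    rw [coeff_pderiv, h1]
    have h2 : ((α - Finsupp.single v 1 : V →₀ ℕ) v : ℂ) + 1 = α v := by
      have h3 : 1 ≤ α v := Nat.one_le_iff_ne_zero.mpr (Finsupp.mem_support_iff.mp h)
      rw [Finsupp.tsub_apply, Finsupp.single_eq_same]
      push_cast [Nat.cast_sub h3]
      ring
    rw [h2, mul_comm]
  · rw [Finsupp.notMem_support_iff.mp h]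
    simp

end Euler

variable {ι τ : Type*} [Fintype ι] [Fintype τ] [LinearOrder ι] [DecidableEq τ]

lemma coeff_R_self {κ : Type*} [Fintype κ] [DecidableEq κ] (i : ι) (f : MvPolynomial (ι × κ) ℂ)
    (α : ι × κ →₀ ℕ) : coeff α (R i i f) = ((∑ p, α (i, p) : ℕ) : ℂ) * coeff α f := by
  rw [R_apply, MvPolynomial.coeff_sum]
  push_cast
  rw [Finset.sum_mul]
  exact Finset.sum_congr rfl fun p _ => coeff_A_self _ _ _

lemma sum_eq_of_eigen {κ : Type*} [Fintype κ] [DecidableEq κ] {i : ι} {e : ℕ}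
    {f : MvPolynomial (ι × κ) ℂ} (h : R i i f = (e : ℂ) • f) {α : ι × κ →₀ ℕ}
    (hα : α ∈ f.support) : ∑ p, α (i, p) = e := by
  have h1 := congrArg (coeff α) h
  rw [coeff_R_self, coeff_smul, smul_eq_mul] at h1
  have h2 := mul_right_cancel₀ (MvPolynomial.mem_support_iff.mp hα) h1
  exact_mod_cast h2

lemma eigen_of_sum_eq {κ : Type*} [Fintype κ] [DecidableEq κ] {i : ι} {e : ℕ}
    {f : MvPolynomial (ι × κ) ℂ} (h : ∀ α ∈ f.support, ∑ p, α (i, p) = e) :
    R i i f = (e : ℂ) • f := by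
  ext α
  rw [coeff_R_self, coeff_smul, smul_eq_mul]
  by_cases hα : α ∈ f.support
  · rw [h α hα]
  · rw [MvPolynomial.notMem_support_iff.mp hα]; simp

lemma degree_eq {κ : Type*} [Fintype κ] (α : ι × κ →₀ ℕ) :
    (α.sum fun _ e => e) = ∑ i, ∑ p, α (i, p) := by
  rw [Finsupp.sum_fintype _ _ (fun _ => rfl), Fintype.sum_prod_type]

lemma fin_of_eigen {κ : Type*} [Fintype κ] [DecidableEq κ] (η : ι → ℕ)
    (H : Submodule ℂ (MvPolynomial (ι × κ) ℂ))
    (h : ∀ f ∈ H, ∀ i, R i i f = (η i : ℂ) • f) : FiniteDimensional ℂ H := by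
  have hle : H ≤ restrictTotalDegree (ι × κ) ℂ (∑ i, η i) := by
    intro f hf
    rw [mem_restrictTotalDegree, totalDegree, Finset.sup_le_iff]
    intro α hα
    rw [degree_eq]
    exact le_of_eq (Finset.sum_congr rfl fun i _ => sum_eq_of_eigen (h f hf i) hα)
  exact Submodule.finiteDimensional_of_le hle

instance finHJ (η : ι → ℕ) (j : ℕ) : FiniteDimensional ℂ (HJ τ η j) :=
  fin_of_eigen η _ fun _ hf => hf.1

lemma mem_up {η : ι → ℕ} {j : ℕ} (p : τ) {f : MvPolynomial (ι × Option τ) ℂ}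
    (hf : f ∈ HJ τ η j) : E none (some p) f ∈ HJ τ η (j + 1) := by
  obtain ⟨h1, h2, h3⟩ := hf
  refine ⟨fun i => ?_, ?_, fun s i h => ?_⟩
  · rw [R_E, h1, map_smul]
  · rw [E_comm, h2, map_smul, if_pos rfl, if_neg (by simp)]
    push_cast
    rw [add_smul, one_smul, sub_zero]
  · rw [R_E, h3 s i h, map_zero]

lemma mem_down {η : ι → ℕ} {j : ℕ} (p : τ) {f : MvPolynomial (ι × Option τ) ℂ}
    (hf : f ∈ HJ τ η (j + 1)) : E (some p) none f ∈ HJ τ η j := by
  obtain ⟨h1, h2, h3⟩ := hf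
  refine ⟨fun i => ?_, ?_, fun s i h => ?_⟩
  · rw [R_E, h1, map_smul]
  · rw [E_comm, h2, map_smul, if_neg (by simp), if_pos rfl]
    push_cast
    rw [add_smul, one_smul]
    abel
  · rw [R_E, h3 s i h, map_zero]

lemma Sop_zero {η : ι → ℕ} {f : MvPolynomial (ι × Option τ) ℂ} (hf : f ∈ HJ τ η 0) :
    Sop f = 0 := by
  obtain ⟨_, h2, _⟩ := hf
  rw [Nat.cast_zero, zero_smul] at h2
  have h3 : ∑ i : ι, (ip (pderiv (i, (none : Option τ)) f) (pderiv (i, none) f)).re = 0 := by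
    rw [← Complex.re_sum]
    have h4 : ip f (E none none f) = 0 := by rw [h2]; simp [ip]
    rw [E_apply, ip_sum_right] at h4
    simp only [ip_A'] at h4
    rw [h4, Complex.zero_re]
  rw [Finset.sum_eq_zero_iff_of_nonneg (fun i _ => ip_self_re_nonneg _)] at h3
  have h5 : ∀ i : ι, pderiv (i, (none : Option τ)) f = 0 := by
    intro i
    apply ip_self_eq_zero
    have h6 := h3 i (Finset.mem_univ i)
    have h7 := ip_self (pderiv (i, (none : Option τ)) f)
    rw [h7, Complex.ofReal_re] at h6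
    rw [h7, h6, Complex.ofReal_zero]
  rw [Sop_apply]
  apply Finset.sum_eq_zero
  intro p _
  have h8 : E (some p) none f = 0 := by
    rw [E_apply]
    apply Finset.sum_eq_zero
    intro i _
    rw [A_apply, h5, mul_zero]
  rw [h8, map_zero]

/-- raising the degree in the new column -/
noncomputable def up (η : ι → ℕ) (j : ℕ) (p : τ) : HJ τ η j →ₗ[ℂ] HJ τ η (j + 1) :=
  (E none (some p)).restrict fun _ hf => mem_up p hf

/-- lowering the degree in the new column -/
noncomputable def down (η : ι → ℕ) (j : ℕ) (p : τ) : HJ τ η (j + 1) →ₗ[ℂ] HJ τ η j :=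
  (E (some p) none).restrict fun _ hf => mem_down p hf

/-- `S` on `H_(j+1)` -/
noncomputable def SS (τ : Type*) [Fintype τ] [DecidableEq τ] (η : ι → ℕ) (j : ℕ) :
    HJ τ η (j + 1) →ₗ[ℂ] HJ τ η (j + 1) :=
  ∑ p : τ, up η j p ∘ₗ down η j p

/-- `T` on `H_j` -/
noncomputable def TT (τ : Type*) [Fintype τ] [DecidableEq τ] (η : ι → ℕ) (j : ℕ) :
    HJ τ η j →ₗ[ℂ] HJ τ η j :=
  ∑ p : τ, down η j p ∘ₗ up η j p

lemma trace_SS (η : ι → ℕ) (j : ℕ) :
    LinearMap.trace ℂ _ (SS τ η j) = LinearMap.trace ℂ _ (TT τ η j) := by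
  unfold SS TT
  rw [map_sum, map_sum]
  exact Finset.sum_congr rfl fun p _ => LinearMap.trace_comp_comm' _ _

lemma SS_coe (η : ι → ℕ) (j : ℕ) (f : HJ τ η (j + 1)) :
    ((SS τ η j f : HJ τ η (j + 1)) : MvPolynomial (ι × Option τ) ℂ) = Sop (f : _) := by
  unfold SS
  rw [LinearMap.sum_apply, Submodule.coe_sum, Sop_apply]
  rfl

lemma TT_coe (η : ι → ℕ) (j : ℕ) (f : HJ τ η j) :
    ((TT τ η j f : HJ τ η j) : MvPolynomial (ι × Option τ) ℂ) = Top' (f : _) := by
  unfold TT
  rw [LinearMap.sum_apply, Submodule.coe_sum, Top_apply]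
  rfl

lemma Top_HJ {η : ι → ℕ} {j : ℕ} {f : MvPolynomial (ι × Option τ) ℂ} (hf : f ∈ HJ τ η j) :
    Top' f = Sop f + (((∑ i, η i : ℕ) : ℂ) - j * (Fintype.card τ + 1)) • f := by
  obtain ⟨h1, h2, _⟩ := hf
  rw [Top_eq, sum_E, h2]
  simp only [h1]
  rw [← Finset.sum_smul]
  push_cast
  rw [smul_smul, sub_smul]
  have h : ((j : ℂ) * (Fintype.card τ + 1)) • f = (j : ℂ) • f +
      ((Fintype.card τ : ℂ) * j) • f := by
    rw [← add_smul]; congr 1; ring
  rw [h]
  abel

/-- the dimension -/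
noncomputable def hh (τ : Type*) [Fintype τ] [DecidableEq τ] (η : ι → ℕ) (j : ℕ) : ℝ :=
  finrank ℂ (HJ τ η j)

/-- the trace -/
noncomputable def ss (τ : Type*) [Fintype τ] [DecidableEq τ] (η : ι → ℕ) : ℕ → ℝ
  | 0 => 0
  | j + 1 => (LinearMap.trace ℂ _ (SS τ η j)).re

lemma ss_succ (η : ι → ℕ) (j : ℕ) :
    ss τ η (j + 1) = ss τ η j +
      (((∑ i, η i : ℕ) : ℝ) - j * (Fintype.card τ + 1)) * hh τ η j := by
  have h1 : ss τ η (j + 1) = (LinearMap.trace ℂ _ (TT τ η j)).re := by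
    rw [← trace_SS]; rfl
  have hc : ∀ x : ℕ, (((((∑ i, η i : ℕ) : ℂ) - j * (Fintype.card τ + 1)) * (x : ℂ))).re =
      (((∑ i, η i : ℕ) : ℝ) - j * (Fintype.card τ + 1)) * x := by
    intro x
    have : ((((∑ i, η i : ℕ) : ℂ) - j * (Fintype.card τ + 1)) * (x : ℂ)) =
        (((((∑ i, η i : ℕ) : ℝ) - j * (Fintype.card τ + 1)) * x : ℝ) : ℂ) := by
      push_cast; ring
    rw [this, Complex.ofReal_re]
  rw [h1]
  cases j with
  | zero =>
    have h2 : TT τ η 0 = (((∑ i, η i : ℕ) : ℂ) - (0 : ℕ) * (Fintype.card τ + 1)) •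
        LinearMap.id := by
      apply LinearMap.ext
      intro f
      apply Subtype.ext
      rw [TT_coe, Top_HJ f.2, Sop_zero f.2, zero_add]
      rfl
    rw [h2, map_smul, LinearMap.trace_id, smul_eq_mul, hc]
    simp [ss, hh]
  | succ j =>
    have h2 : TT τ η (j + 1) = SS τ η j +
        (((∑ i, η i : ℕ) : ℂ) - (j + 1 : ℕ) * (Fintype.card τ + 1)) • LinearMap.id := by
      apply LinearMap.ext
      intro f
      apply Subtype.ext
      rw [TT_coe, Top_HJ f.2, LinearMap.add_apply, Submodule.coe_add, SS_coe]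
      rfl
    rw [h2, map_add, map_smul, LinearMap.trace_id, smul_eq_mul, Complex.add_re, hc]
    rfl

lemma ss_le {η : ι → ℕ} {L : ℕ} (hL : ∀ i, η i ≤ L) (j : ℕ) :
    ss τ η j ≤ j * (Fintype.card τ + L) * hh τ η j := by
  cases j with
  | zero => simp [ss]
  | succ j =>
    unfold ss hh
    apply trace_le
    intro f
    rw [SS_coe]
    exact quad hL f.2

/-- The numerical recursion. -/
lemma growth {s h : ℕ → ℝ} {m q c : ℝ} (hh0 : ∀ j, 0 ≤ h j) (hs0 : s 0 = 0)
    (hs : ∀ j, s (j + 1) = s j + (m - j * c) * h j) (hle : ∀ j : ℕ, s j ≤ j * q * h j)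
    (hcq : c ≤ q) (hq : 0 < q) (J : ℕ) (hJ : 2 * J * q ≤ m) : 2 ^ J * h 0 ≤ h J := by
  rcases Nat.eq_zero_or_pos J with rfl | hJ0
  · simp
  have key : ∀ j : ℕ, 1 ≤ j → j ≤ J → m * 2 ^ (j - 1) * h 0 ≤ s j := by
    intro j hj
    induction j, hj using Nat.le_induction with
    | base =>
      intro _
      have := hs 0
      rw [hs0] at this
      simp only [Nat.cast_zero, zero_mul, sub_zero, zero_add] at this
      simp [this]
    | succ j hj ih =>
      intro hjJ
      have h1 := ih (by omega)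
      have h2 : 2 * (j : ℝ) * q ≤ m := by
        refine le_trans ?_ hJ
        have : (j : ℝ) ≤ J := by exact_mod_cast (by omega : j ≤ J)
        nlinarith
      have h3 : (j : ℝ) * q * h j ≤ (m - j * c) * h j := by
        apply mul_le_mul_of_nonneg_right _ (hh0 j)
        have : (j : ℝ) * c ≤ j * q := mul_le_mul_of_nonneg_left hcq (Nat.cast_nonneg j)
        linarith
      have h4 := hle j
      rw [hs]
      have h5 : (2 : ℝ) ^ (j + 1 - 1) = 2 * 2 ^ (j - 1) := by
        rw [← pow_succ']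
        congr 1
        omega
      rw [h5]
      nlinarith
  have h1 := key J hJ0 le_rfl
  have h2 := hle J
  have hJr : (0 : ℝ) < J := by exact_mod_cast hJ0
  have h3 : (2 : ℝ) ^ J = 2 * 2 ^ (J - 1) := by
    rw [← pow_succ']
    congr 1
    omega
  have h4 : 0 ≤ (2 : ℝ) ^ (J - 1) * h 0 := mul_nonneg (by positivity) (hh0 0)
  have h5 : 2 * J * q * (2 ^ (J - 1) * h 0) ≤ m * (2 ^ (J - 1) * h 0) :=
    mul_le_mul_of_nonneg_right hJ h4
  have h6 : J * q * (2 ^ J * h 0) ≤ J * q * h J := by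
    rw [h3]
    calc J * q * (2 * 2 ^ (J - 1) * h 0) = 2 * J * q * (2 ^ (J - 1) * h 0) := by ring
      _ ≤ m * (2 ^ (J - 1) * h 0) := h5
      _ = m * 2 ^ (J - 1) * h 0 := by ring
      _ ≤ s J := h1
      _ ≤ _ := h2
  exact le_of_mul_le_mul_left h6 (by positivity)

/-- **One new column.** -/
theorem hJ_ge {η : ι → ℕ} {L : ℕ} (hL : ∀ i, η i ≤ L) (hL1 : 1 ≤ L) :
    2 ^ ((∑ i, η i) / (2 * (Fintype.card τ + L))) * finrank ℂ (HJ τ η 0) ≤
      finrank ℂ (HJ τ η ((∑ i, η i) / (2 * (Fintype.card τ + L)))) := by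
  set m := ∑ i, η i
  set q := Fintype.card τ + L with hqd
  have hq0 : 0 < q := by omega
  have h := growth (s := ss τ η) (h := hh τ η) (m := m) (q := q) (c := Fintype.card τ + 1)
    (fun j => Nat.cast_nonneg _) rfl (fun j => ss_succ η j)
    (fun j => by
      have := ss_le (τ := τ) hL j
      rw [hqd]
      push_cast
      exact this)
    (by rw [hqd]; exact_mod_cast (by omega : Fintype.card τ + 1 ≤ Fintype.card τ + L))
    (by exact_mod_cast hq0) (m / (2 * q))
    (by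
      have h1 : m / (2 * q) * (2 * q) ≤ m := Nat.div_mul_le_self _ _
      have h2 : 2 * (m / (2 * q)) * q ≤ m := by
        calc 2 * (m / (2 * q)) * q = m / (2 * q) * (2 * q) := by ring
          _ ≤ m := h1
      exact_mod_cast h2)
  unfold hh at h
  exact_mod_cast h

end Vale.Agent.P181.H129
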