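import Vale.Agent.P181.H129.Fischer

/-!
The trace of an operator on a finite dimensional space of polynomials is at most the dimension
times an upper bound of its Fischer quadratic form.
-/

set_option autoImplicit false

namespace Vale.Agent.P181.H129

open MvPolynomial Finset Module

variable {V : Type*} [Fintype V]

lemma ip_smul_left (f g : MvPolynomial V ℂ) (c : ℂ) :
    ip (c • f) g = (starRingEnd ℂ) c * ip f g := by
  rw [← ip_conj, ip_smul_right, map_mul, ip_conj]

/-- The Fischer product on a submodule. -/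
noncomputable def core (H : Submodule ℂ (MvPolynomial V ℂ)) : InnerProductSpace.Core ℂ H where
  inner f g := ip (f : MvPolynomial V ℂ) (g : MvPolynomial V ℂ)
  conj_inner_symm f g := ip_conj _ _
  re_inner_nonneg f := ip_self_re_nonneg _
  add_left f g h := ip_add_left _ _ _
  smul_left f g c := ip_smul_left _ _ _
  definite f hf := Subtype.ext (ip_self_eq_zero hf)

theorem trace_le (H : Submodule ℂ (MvPolynomial V ℂ)) [hH : FiniteDimensional ℂ H]
    (S : H →ₗ[ℂ] H) (c : ℝ)
    (h : ∀ f : H, (ip (f : MvPolynomial V ℂ) (S f : MvPolynomial V ℂ)).re ≤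
      c * (ip (f : MvPolynomial V ℂ) (f : MvPolynomial V ℂ)).re) :
    (LinearMap.trace ℂ H S).re ≤ c * finrank ℂ H := by
  letI i1 : NormedAddCommGroup H := (core H).toNormedAddCommGroup
  letI i2 : InnerProductSpace ℂ H := InnerProductSpace.ofCore (core H).toCore
  haveI i3 : FiniteDimensional ℂ H := hH
  have h1 := LinearMap.trace_eq_sum_inner S (stdOrthonormalBasis ℂ H)
  have h2 : (LinearMap.trace ℂ H S).re =
      ∑ i, (inner ℂ ((stdOrthonormalBasis ℂ H) i) (S ((stdOrthonormalBasis ℂ H) i))).re := by
    rw [← Complex.re_sum]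
    exact congrArg Complex.re h1
  rw [h2]
  calc ∑ i, (inner ℂ ((stdOrthonormalBasis ℂ H) i) (S ((stdOrthonormalBasis ℂ H) i))).re
      ≤ ∑ _i : Fin (finrank ℂ H), c := by
        apply Finset.sum_le_sum
        intro i _
        have h3 := h ((stdOrthonormalBasis ℂ H) i)
        have h4 : inner ℂ ((stdOrthonormalBasis ℂ H) i) ((stdOrthonormalBasis ℂ H) i) = (1 : ℂ) :=
          inner_self_eq_one_of_norm_eq_one ((stdOrthonormalBasis ℂ H).orthonormal.1 i)
        have h5 : ip (((stdOrthonormalBasis ℂ H) i : H) : MvPolynomial V ℂ)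
            (((stdOrthonormalBasis ℂ H) i : H) : MvPolynomial V ℂ) = 1 := h4
        rw [h5, Complex.one_re, mul_one] at h3
        exact h3
    _ = c * finrank ℂ H := by
        rw [Finset.sum_const, Finset.card_univ, Fintype.card_fin, nsmul_eq_mul, mul_comm]

end Vale.Agent.P181.H129
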